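import Vale.Agent.P213.Basic.OCat

/-!
# Composition as a total operation
-/

namespace Vale.Agent.P213.OCat

variable (X : OCat) {i j : ℕ} {a b c d : X.Cell}

open Classical in
/-- The composite, or the left factor when the two cells are not composable. -/
noncomputable def cmp (i : ℕ) (a b : X.Cell) : X.Cell :=
  if h : X.src i a = X.tgt i b then X.comp i a b h else a

theorem cmp_eq (h : X.src i a = X.tgt i b) : X.cmp i a b = X.comp i a b h := dif_pos h

theorem src_of_le {n : ℕ} (h : X.src n a = a) (hj : n ≤ j) : X.src j a = a := by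
  rw [← h, X.src_src, min_eq_right hj]

theorem tgt_self {n : ℕ} (h : X.src n a = a) : X.tgt n a = a := by
  rw [← h, X.tgt_src_ge n n a le_rfl]

theorem tgt_of_le {n : ℕ} (h : X.src n a = a) (hj : n ≤ j) : X.tgt j a = a :=
  X.tgt_self (X.src_of_le h hj)

theorem cmp_unit_right (h : X.src i a = b) : X.cmp i a b = a := by
  subst h
  rw [X.cmp_eq (by rw [X.tgt_src_ge i i a le_rfl]), X.comp_unit_right]

theorem cmp_unit_left (h : X.tgt i b = a) : X.cmp i a b = b := by
  subst h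
  rw [X.cmp_eq (by rw [X.src_tgt_ge i i b le_rfl]), X.comp_unit_left]

theorem src_cmp_le (h : X.src i a = X.tgt i b) (hj : j ≤ i) :
    X.src j (X.cmp i a b) = X.src j b := by
  rw [X.cmp_eq h, X.src_comp_le i j a b h hj]

theorem tgt_cmp_le (h : X.src i a = X.tgt i b) (hj : j ≤ i) :
    X.tgt j (X.cmp i a b) = X.tgt j a := by
  rw [X.cmp_eq h, X.tgt_comp_le i j a b h hj]

theorem src_cmp_gt (h : X.src i a = X.tgt i b) (hj : i < j) :
    X.src j (X.cmp i a b) = X.cmp i (X.src j a) (X.src j b) := by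
  have h' : X.src i (X.src j a) = X.tgt i (X.src j b) := by
    rw [X.src_src, min_eq_left hj.le, X.tgt_src_lt i j b hj, h]
  rw [X.cmp_eq h, X.cmp_eq h', X.src_comp_gt i j a b h h' hj]

theorem tgt_cmp_gt (h : X.src i a = X.tgt i b) (hj : i < j) :
    X.tgt j (X.cmp i a b) = X.cmp i (X.tgt j a) (X.tgt j b) := by
  have h' : X.src i (X.tgt j a) = X.tgt i (X.tgt j b) := by
    rw [X.tgt_tgt, min_eq_left hj.le, X.src_tgt_lt i j a hj, h]
  rw [X.cmp_eq h, X.cmp_eq h', X.tgt_comp_gt i j a b h h' hj]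

theorem cmp_assoc (h : X.src i a = X.tgt i b) (h' : X.src i b = X.tgt i c) :
    X.cmp i (X.cmp i a b) c = X.cmp i a (X.cmp i b c) := by
  have e₁ : X.src i (X.cmp i a b) = X.tgt i c := by rw [X.src_cmp_le h le_rfl, h']
  have e₂ : X.src i a = X.tgt i (X.cmp i b c) := by rw [X.tgt_cmp_le h' le_rfl, h]
  rw [X.cmp_eq e₁, X.cmp_eq e₂]
  simp only [X.cmp_eq h, X.cmp_eq h']
  exact X.assoc _ _ _ _ _ _ _ _

theorem interchange' (hij : i < j) (h : X.src j a = X.tgt j b) (h' : X.src j c = X.tgt j d)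
    (h'' : X.src i a = X.tgt i c) :
    X.cmp i (X.cmp j a b) (X.cmp j c d) = X.cmp j (X.cmp i a c) (X.cmp i b d) := by
  have eb : X.src i b = X.src i a := by
    rw [← X.src_tgt_lt i j b hij, ← h, X.src_src, min_eq_left hij.le]
  have ed : X.tgt i d = X.tgt i c := by
    have e1 : X.tgt i (X.src j c) = X.tgt i c := X.tgt_src_lt i j c hij
    rw [h', X.tgt_tgt, min_eq_left hij.le] at e1
    exact e1
  have h₅ : X.src i b = X.tgt i d := by rw [eb, ed, h'']
  have h₃ : X.src i (X.cmp j a b) = X.tgt i (X.cmp j c d) := by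
    rw [X.src_cmp_le h hij.le, X.tgt_cmp_le h' hij.le, eb, h'']
  have h₆ : X.src j (X.cmp i a c) = X.tgt j (X.cmp i b d) := by
    rw [X.src_cmp_gt h'' hij, X.tgt_cmp_gt h₅ hij, h, h']
  rw [X.cmp_eq h₃, X.cmp_eq h₆]
  simp only [X.cmp_eq h, X.cmp_eq h', X.cmp_eq h'', X.cmp_eq h₅]
  exact X.interchange _ _ _ _ _ _ _ _ _ _ _ _ hij

theorem dim_cmp {n : ℕ} (h : X.src i a = X.tgt i b) (ha : X.src n a = a) (hb : X.src n b = b) :
    X.src n (X.cmp i a b) = X.cmp i a b := by
  rcases le_or_gt n i with hn | hn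
  · rw [X.cmp_unit_right (i := i) (a := a) (b := b) (by
      rw [h, X.tgt_of_le hb hn]), ha]
  · rw [X.src_cmp_gt h hn, ha, hb]

theorem map_cmp {X Y : OCat} (f : Hom X Y) {i : ℕ} {a b : X.Cell}
    (h : X.src i a = X.tgt i b) : f.map (X.cmp i a b) = Y.cmp i (f.map a) (f.map b) := by
  rw [X.cmp_eq h, Y.cmp_eq (f.composable h), f.map_comp i a b h (f.composable h)]

end Vale.Agent.P213.OCat
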