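import Vale.Agent.P213.Basic.Free
import Vale.Agent.P213.Free.Cmp
import Mathlib.Data.Finsupp.Basic
import Mathlib.Data.Fintype.Card
import Mathlib.Tactic.Linarith

/-!
# Cells of `ν K`: chains, gluing, peeling, and the rank of an atom
-/

open CategoryTheory

namespace Vale.Agent.P213.ADC

noncomputable section

variable {K : ADC}

/-- All levels above `n` vanish. -/
def Le (n : ℕ) (c : Table K) : Prop := ∀ l s, n < l → c.x l s = 0

theorem Le.mono {n m : ℕ} {c : Table K} (h : Le n c) (hm : n ≤ m) : Le m c :=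
  fun l s hl => h l s (hm.trans_lt hl)

theorem Le.top_eq {n : ℕ} {c : Table K} (h : Le n c) (s t : Bool) : c.x n s = c.x n t := by
  have e := c.bdry n true
  rw [h (n + 1) true n.lt_succ_self, map_zero, eq_comm, sub_eq_zero] at e
  cases s <;> cases t <;> simp [e]

theorem le_face (c : Table K) (i : ℕ) (e : Bool) : Le i (c.face i e) := fun l s hl => by
  rw [Table.face_x, if_neg (by omega), if_neg (by omega)]

theorem Le.face {n : ℕ} {c : Table K} (h : Le n c) (i : ℕ) (e : Bool) : Le n (c.face i e) :=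
  fun l s hl => by
    rw [Table.face_x]
    split_ifs
    · exact h l s hl
    · exact h l e hl
    · rfl

theorem Le.face_eq {n : ℕ} {c : Table K} (h : Le n c) {i : ℕ} (hi : n ≤ i) (e : Bool) :
    c.face i e = c := by
  refine Table.ext (funext fun k => funext fun s => ?_)
  rw [Table.face_x]
  split_ifs with h₁ h₂
  · rfl
  · subst h₂; exact (h.mono hi).top_eq e s
  · exact (h k s (by omega)).symm

theorem cmp_x {i : ℕ} {a b : Table K} (h : a.face i false = b.face i true) (k : ℕ) (s : Bool) :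
    Table.x ((nu K).cmp i a b) k s = if k < i then a.x k s else if k = i then
      (if s then a.x k true else b.x k false) else a.x k s + b.x k s := by
  rw [(nu K).cmp_eq h]
  exact Table.comp_x i a b h k s

theorem Le.cmp {n i : ℕ} {a b : Table K} (ha : Le n a) (hb : Le n b)
    (h : a.face i false = b.face i true) : Le n ((nu K).cmp i a b) := fun l s hl => by
  rw [cmp_x h]
  split_ifs
  · exact ha l s hl
  · exact ha l true hl
  · exact hb l false hl
  · rw [ha l s hl, hb l s hl, add_zero]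

theorem face_congr {i : ℕ} {a b : Table K} {e e' : Bool} (hlt : ∀ k s, k < i → a.x k s = b.x k s)
    (he : a.x i e = b.x i e') : a.face i e = b.face i e' := by
  refine Table.ext (funext fun k => funext fun s => ?_)
  rw [Table.face_x, Table.face_x]
  split_ifs with h₁ h₂
  · exact hlt k s h₁
  · subst h₂; exact he
  · rfl

/-! ## Chains -/

/-- The sum of the coefficients. -/
def wt {α : Type} : (α →₀ ℤ) →ₗ[ℤ] ℤ := Finsupp.lsum ℤ fun _ => LinearMap.id

theorem wt_apply {α : Type} (p : α →₀ ℤ) : wt p = p.sum fun _ v => v := rfl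

theorem wt_single {α : Type} (a : α) (v : ℤ) : wt (Finsupp.single a v) = v := by
  simp [wt]

theorem wt_nonneg {α : Type} {p : α →₀ ℤ} (h : 0 ≤ p) : 0 ≤ wt p :=
  Finset.sum_nonneg fun e _ => h e

theorem wt_eq_zero {α : Type} {p : α →₀ ℤ} (h : 0 ≤ p) (h' : wt p = 0) : p = 0 := by
  ext e
  by_contra he
  have := (Finset.sum_eq_zero_iff_of_nonneg fun x _ => h x).1 h' e (Finsupp.mem_support_iff.2 he)
  exact he this

theorem single_le {α : Type} {p : α →₀ ℤ} (h : 0 ≤ p) {e : α} (he : p e ≠ 0) :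
    Finsupp.single e 1 ≤ p := by
  intro x
  by_cases hx : x = e
  · subst hx
    rw [Finsupp.single_eq_same]
    have : 0 ≤ p x := h x
    omega
  · rw [Finsupp.single_eq_of_ne hx]
    exact h x

theorem eq_single_of_wt {α : Type} {p : α →₀ ℤ} (h : 0 ≤ p) (h' : wt p = 1) :
    ∃ e, p = Finsupp.single e 1 := by
  have hne : p ≠ 0 := fun h0 => by simp [h0] at h'
  obtain ⟨e, he⟩ := Finsupp.ne_iff.1 hne
  refine ⟨e, (sub_eq_zero.1 (wt_eq_zero (sub_nonneg.2 (single_le h he)) ?_))⟩
  rw [map_sub, h', wt_single]; rfl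

theorem d_apply (l : ℕ) (p : K.B (l + 1) →₀ ℤ) (b : K.B l) :
    K.d l p b = p.sum fun e v => v * K.d l (K.gen e) b := by
  induction p using Finsupp.induction_linear with
  | zero => simp
  | add p q hp hq =>
    classical
    rw [map_add, Finsupp.add_apply, hp, hq, Finsupp.sum_add_index] <;> simp [add_mul]
  | single e v =>
    rw [Finsupp.sum_single_index (by simp),
      show Finsupp.single e v = v • K.gen e by simp [gen], map_smul, Finsupp.smul_apply, smul_eq_mul]

theorem exists_of_d_pos {l : ℕ} {p : K.B (l + 1) →₀ ℤ} (hp : 0 ≤ p) {b : K.B l}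
    (h : 0 < K.d l p b) : ∃ e, p e ≠ 0 ∧ K.InBdry true e b := by
  by_contra hc
  push Not at hc
  refine absurd h (not_lt.2 ?_)
  rw [d_apply]
  refine Finset.sum_nonpos fun e he => ?_
  have := hc e (Finsupp.mem_support_iff.1 he)
  simp only [InBdry, if_true, not_lt] at this
  exact mul_nonpos_of_nonneg_of_nonpos (hp e) this

theorem exists_of_d_neg {l : ℕ} {p : K.B (l + 1) →₀ ℤ} (hp : 0 ≤ p) {b : K.B l}
    (h : K.d l p b < 0) : ∃ e, p e ≠ 0 ∧ K.InBdry false e b := by
  by_contra hc
  push Not at hc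
  refine absurd h (not_lt.2 ?_)
  rw [d_apply]
  refine Finset.sum_nonneg fun e he => ?_
  have := hc e (Finsupp.mem_support_iff.1 he)
  simp only [InBdry, Bool.false_eq_true, if_false, not_lt] at this
  exact mul_nonneg (hp e) this

/-! ## Gluing -/

/-- Two chains with the same boundary (the same augmentation in level `0`). -/
def Par : ∀ J : ℕ, (K.B J →₀ ℤ) → (K.B J →₀ ℤ) → Prop
  | 0, x, y => K.ε x = K.ε y
  | J + 1, x, y => K.d J x = K.d J y

theorem Par.add_d {J : ℕ} {x y : K.B J →₀ ℤ} (h : Par J x y) (p : K.B (J + 1) →₀ ℤ) :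
    Par J (x + K.d J p) y := by
  cases J with
  | zero => simp only [Par, map_add, K.ε_d, add_zero] at h ⊢; exact h
  | succ J => simp only [Par, map_add, K.d_d, add_zero] at h ⊢; exact h

theorem par_refl {J : ℕ} (x : K.B J →₀ ℤ) : Par J x x := by
  cases J <;> rfl

/-- The conditions for replacing the levels from `J` on of a cell by `u`. -/
structure Glue (c : Table K) (J : ℕ) (u : ∀ l, Bool → (K.B l →₀ ℤ)) : Prop where
  nonneg : ∀ l s, J ≤ l → 0 ≤ u l s
  par : Par J (u J false) (c.x J false)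
  bdry : ∀ l s, J ≤ l → K.d l (u (l + 1) s) = u l true - u l false
  zero : ∃ N, ∀ l s, N ≤ l → u l s = 0

theorem Glue.par' {c : Table K} {J : ℕ} {u : ∀ l, Bool → (K.B l →₀ ℤ)} (h : Glue c J u)
    (s : Bool) : Par J (u J s) (c.x J false) := by
  cases s
  · exact h.par
  · have := h.par.add_d (K.d J |> fun _ => u (J + 1) true)
    rwa [h.bdry J true le_rfl, add_sub_cancel] at this

/-- The cell agreeing with `c` below `J` and with `u` from `J` on. -/
def glue (c : Table K) (J : ℕ) (u : ∀ l, Bool → (K.B l →₀ ℤ)) (h : Glue c J u) : Table K where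
  x l s := if l < J then c.x l s else u l s
  nonneg l s := by
    split_ifs with h'
    · exact c.nonneg l s
    · exact h.nonneg l s (not_lt.1 h')
  aug s := by
    split_ifs with h'
    · exact c.aug s
    · obtain rfl : J = 0 := by omega
      exact (h.par' s).trans (c.aug false)
  bdry l s := by
    rcases lt_trichotomy (l + 1) J with hl | hl | hl
    · rw [if_pos hl, if_pos (by omega), if_pos (by omega), c.bdry]
    · subst hl
      rw [if_neg (lt_irrefl _), if_pos l.lt_succ_self, if_pos l.lt_succ_self]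
      exact (h.par' s).trans (c.bdry l false)
    · rw [if_neg (by omega), if_neg (by omega), if_neg (by omega), h.bdry l s (by omega)]
  exists_zero := by
    obtain ⟨N, hN⟩ := h.zero
    exact ⟨N + J, fun l s hl => by rw [if_neg (by omega), hN l s (by omega)]⟩

open Classical in
/-- Total version of `glue`. -/
def tb (c : Table K) (J : ℕ) (u : ∀ l, Bool → (K.B l →₀ ℤ)) : Table K :=
  if h : Glue c J u then glue c J u h else c

theorem tb_x {c : Table K} {J : ℕ} {u : ∀ l, Bool → (K.B l →₀ ℤ)} (h : Glue c J u) (l : ℕ)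
    (s : Bool) : (tb c J u).x l s = if l < J then c.x l s else u l s := by
  rw [tb, dif_pos h]; rfl

/-- The levels of a cell of dimension at most `J + 1` from level `J` on. -/
def lev (J : ℕ) (m₀ m₁ : K.B J →₀ ℤ) (p : K.B (J + 1) →₀ ℤ) (l : ℕ) (s : Bool) : K.B l →₀ ℤ :=
  Pi.single (M := fun l => K.B l →₀ ℤ) J (if s then m₁ else m₀) l +
    Pi.single (M := fun l => K.B l →₀ ℤ) (J + 1) p l

theorem lev_same (J : ℕ) (m₀ m₁ : K.B J →₀ ℤ) (p : K.B (J + 1) →₀ ℤ) (s : Bool) :
    lev J m₀ m₁ p J s = if s then m₁ else m₀ := by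
  simp [lev]

theorem lev_succ (J : ℕ) (m₀ m₁ : K.B J →₀ ℤ) (p : K.B (J + 1) →₀ ℤ) (s : Bool) :
    lev J m₀ m₁ p (J + 1) s = p := by
  simp [lev]

theorem lev_above (J : ℕ) (m₀ m₁ : K.B J →₀ ℤ) (p : K.B (J + 1) →₀ ℤ) (s : Bool) {l : ℕ}
    (h : J + 1 < l) : lev J m₀ m₁ p l s = 0 := by
  simp [lev, Pi.single_eq_of_ne (show l ≠ J by omega), Pi.single_eq_of_ne (show l ≠ J + 1 by omega)]

/-- The cell of dimension at most `J + 1` from `m₀` to `m₁` along `p`. -/
def cut (c : Table K) (J : ℕ) (m₀ m₁ : K.B J →₀ ℤ) (p : K.B (J + 1) →₀ ℤ) : Table K :=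
  tb c J (lev J m₀ m₁ p)

/-- The conditions for `cut`. -/
structure CutOK (c : Table K) (J : ℕ) (m₀ m₁ : K.B J →₀ ℤ) (p : K.B (J + 1) →₀ ℤ) : Prop where
  h₀ : 0 ≤ m₀
  h₁ : 0 ≤ m₁
  hp : 0 ≤ p
  hd : K.d J p = m₁ - m₀
  par : Par J m₀ (c.x J false)

theorem CutOK.glue {c : Table K} {J : ℕ} {m₀ m₁ : K.B J →₀ ℤ} {p : K.B (J + 1) →₀ ℤ}
    (h : CutOK c J m₀ m₁ p) : Glue c J (lev J m₀ m₁ p) where
  nonneg l s hl := by
    rcases lt_trichotomy l (J + 1) with h' | rfl | h'
    · obtain rfl : l = J := by omega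
      rw [lev_same]; split_ifs <;> [exact h.h₁; exact h.h₀]
    · rw [lev_succ]; exact h.hp
    · rw [lev_above _ _ _ _ _ h']
  par := by rw [lev_same]; exact h.par
  bdry l s hl := by
    rcases Nat.eq_or_lt_of_le hl with rfl | h'
    · rw [lev_succ, lev_same, lev_same, h.hd]; rfl
    · rw [lev_above _ _ _ _ _ (by omega), map_zero]
      rcases Nat.eq_or_lt_of_le (Nat.succ_le_of_lt h') with rfl | h''
      · rw [lev_succ, lev_succ, sub_self]
      · rw [lev_above _ _ _ _ _ h'', lev_above _ _ _ _ _ h'', sub_self]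
  zero := ⟨J + 2, fun l s hl => lev_above _ _ _ _ _ (by omega)⟩

theorem cut_x {c : Table K} {J : ℕ} {m₀ m₁ : K.B J →₀ ℤ} {p : K.B (J + 1) →₀ ℤ}
    (h : CutOK c J m₀ m₁ p) :
    (∀ l s, l < J → (cut c J m₀ m₁ p).x l s = c.x l s) ∧
      (∀ s, (cut c J m₀ m₁ p).x J s = if s then m₁ else m₀) ∧
      (∀ s, (cut c J m₀ m₁ p).x (J + 1) s = p) ∧ Le (J + 1) (cut c J m₀ m₁ p) := by
  refine ⟨fun l s hl => ?_, fun s => ?_, fun s => ?_, fun l s hl => ?_⟩ <;>
    rw [cut, tb_x h.glue]
  · rw [if_pos hl]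
  · rw [if_neg (lt_irrefl _), lev_same]
  · rw [if_neg (by omega), lev_succ]
  · rw [if_neg (by omega), lev_above _ _ _ _ _ hl]

/-! ## Ranks and atoms -/

variable (K) in
/-- An injective rank and a choice of atoms. -/
structure Data where
  r : ∀ {l : ℕ}, K.B l → ℤ
  r_inj : ∀ l, Function.Injective (r (l := l))
  r_bdry : ∀ (l : ℕ) (a : K.B (l + 1)) (b : K.B l),
    (K.InBdry false a b → r b < r a) ∧ (K.InBdry true a b → r a < r b)
  atom : ∀ {l : ℕ}, K.B l → Table K
  isAtom : ∀ (l : ℕ) (b : K.B l), K.IsAtom b (atom b)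

theorem IsSteiner.nonempty_data (h : K.IsSteiner) : Nonempty (Data K) := by
  obtain ⟨hfin, ⟨r, hr⟩, hun⟩ := h
  choose c hc using hun
  have := Fintype.ofFinite (Σ k, K.B k)
  let e := Fintype.equivFin (Σ k, K.B k)
  let M : ℤ := Fintype.card (Σ k, K.B k)
  have hlt : ∀ x, (0 : ℤ) ≤ (e x : ℕ) ∧ ((e x : ℕ) : ℤ) < M := fun x =>
    ⟨by positivity, by simp only [M]; exact_mod_cast (e x).2⟩
  have key : ∀ x y, r x < r y → r x * M + (e x : ℕ) < r y * M + (e y : ℕ) := fun x y hxy => by
    have h1 := hlt x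
    have h2 := hlt y
    nlinarith
  exact ⟨{
    r := fun {l} b => r ⟨l, b⟩ * M + (e ⟨l, b⟩ : ℕ)
    r_inj := fun l x y hxy => by
      rcases lt_trichotomy (r ⟨l, x⟩) (r ⟨l, y⟩) with hlt' | heq | hgt
      · exact absurd hxy (key _ _ hlt').ne
      · simp only [heq, add_right_inj] at hxy
        have := e.injective (Fin.ext (Int.natCast_inj.1 hxy))
        simpa using this
      · exact absurd hxy (key _ _ hgt).ne'
    r_bdry := fun l a b => ⟨fun h => key _ _ ((hr l a b).1 h), fun h => key _ _ ((hr l a b).2 h)⟩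
    atom := fun {l} b => c l b
    isAtom := hc }⟩

namespace Data

variable (D : Data K)

theorem atom_le {n : ℕ} (a : K.B n) : Le n (D.atom a) := (D.isAtom n a).above

include D in
theorem aug_eq_wt (x : K.B 0 →₀ ℤ) : K.ε x = wt x := by
  suffices K.ε = wt by rw [this]
  refine Finsupp.lhom_ext fun b v => ?_
  have h := (D.atom b).aug true
  rw [(D.isAtom 0 b).top true, gen] at h
  rw [show Finsupp.single b v = v • Finsupp.single b 1 by simp, map_smul, map_smul, h, wt_single]

include D in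
/-- A chain of vertices is the level `0` of a cell only if it is a generator. -/
theorem level_zero (c : Table K) (s : Bool) : ∃ b, c.x 0 s = K.gen b :=
  eq_single_of_wt (c.nonneg 0 s) (by rw [← D.aug_eq_wt, c.aug])

/-- If the elements of `p` precede those of `q` then `p` can be done first. -/
theorem split_nonneg {J : ℕ} {m₀ m₁ : K.B J →₀ ℤ} {p q : K.B (J + 1) →₀ ℤ} (h₀ : 0 ≤ m₀)
    (h₁ : 0 ≤ m₁) (hp : 0 ≤ p) (hq : 0 ≤ q) (hd : K.d J (p + q) = m₁ - m₀)
    (hsep : ∀ e e', p e ≠ 0 → q e' ≠ 0 → D.r e ≤ D.r e') : 0 ≤ m₀ + K.d J p := by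
  intro b
  have hb0 : 0 ≤ m₀ b := h₀ b
  have hb1 : 0 ≤ m₁ b := h₁ b
  simp only [Finsupp.coe_zero, Pi.zero_apply, Finsupp.add_apply]
  by_cases hneg : K.d J p b < 0
  · obtain ⟨e, he, heb⟩ := exists_of_d_neg hp hneg
    have hq' : K.d J q b ≤ 0 := by
      by_contra hpos
      obtain ⟨e', he', heb'⟩ := exists_of_d_pos hq (not_le.1 hpos)
      have := hsep e e' he he'
      have := (D.r_bdry J e b).1 heb
      have := (D.r_bdry J e' b).2 heb'
      omega
    have := congrArg (fun f => f b) hd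
    simp only [map_add, Finsupp.add_apply, Finsupp.sub_apply] at this
    omega
  · omega

theorem atom_min {n : ℕ} (a : K.B n) {l : ℕ} (hl : l < n) (b : K.B l) :
    min ((D.atom a).x l true b) ((D.atom a).x l false b) = 0 := by
  have := congrArg (fun f => f b) ((D.isAtom n a).min l hl)
  simpa using this

/-- Targets of an atom come after it and sources before it. -/
theorem atom_rank {n : ℕ} (a : K.B n) :
    ∀ (d l : ℕ), l + d + 1 = n → ∀ (b : K.B l),
      ((D.atom a).x l true b ≠ 0 → D.r a < D.r b) ∧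
      ((D.atom a).x l false b ≠ 0 → D.r b < D.r a) := by
  intro d
  induction d with
  | zero =>
    intro l hl b
    subst hl
    have hd : K.d l (K.gen a) b = (D.atom a).x l true b - (D.atom a).x l false b := by
      have := (D.atom a).bdry l true
      rw [(D.isAtom _ a).top] at this
      simpa using congrArg (fun f => f b) this
    have hmin := D.atom_min a l.lt_succ_self b
    refine ⟨fun hb => (D.r_bdry l a b).2 ?_, fun hb => (D.r_bdry l a b).1 ?_⟩ <;>
      simp only [InBdry, if_true, Bool.false_eq_true, if_false]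
    · have : 0 ≤ (D.atom a).x l true b := (D.atom a).nonneg l true b
      omega
    · have : 0 ≤ (D.atom a).x l false b := (D.atom a).nonneg l false b
      omega
  | succ d ih =>
    intro l hl b
    have hmin := D.atom_min a (l := l) (by omega) b
    have hbd : ∀ s, K.d l ((D.atom a).x (l + 1) s) b =
        (D.atom a).x l true b - (D.atom a).x l false b := fun s => by
      simpa using congrArg (fun f => f b) ((D.atom a).bdry l s)
    refine ⟨fun hb => ?_, fun hb => ?_⟩
    · have hpos : 0 < K.d l ((D.atom a).x (l + 1) true) b := by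
        have : 0 ≤ (D.atom a).x l true b := (D.atom a).nonneg l true b
        rw [hbd]; omega
      obtain ⟨e, he, heb⟩ := exists_of_d_pos ((D.atom a).nonneg _ _) hpos
      exact ((ih (l + 1) (by omega) e).1 he).trans ((D.r_bdry l e b).2 heb)
    · have hneg : K.d l ((D.atom a).x (l + 1) false) b < 0 := by
        have : 0 ≤ (D.atom a).x l false b := (D.atom a).nonneg l false b
        rw [hbd]; omega
      obtain ⟨e, he, heb⟩ := exists_of_d_neg ((D.atom a).nonneg _ _) hneg
      exact ((D.r_bdry l e b).1 heb).trans ((ih (l + 1) (by omega) e).2 he)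

theorem rank_tgt {n : ℕ} (a : K.B n) {l : ℕ} (hl : l < n) {b : K.B l}
    (h : (D.atom a).x l true b ≠ 0) : D.r a < D.r b :=
  (D.atom_rank a (n - l - 1) l (by omega) b).1 h

theorem rank_src {n : ℕ} (a : K.B n) {l : ℕ} (hl : l < n) {b : K.B l}
    (h : (D.atom a).x l false b ≠ 0) : D.r b < D.r a :=
  (D.atom_rank a (n - l - 1) l (by omega) b).2 h

end Data

end

end Vale.Agent.P213.ADC
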