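import Vale.Agent.P213.Free.Basic

/-!
# Decomposition of cells into whiskered atoms, and uniqueness of functors
-/

open CategoryTheory

namespace Vale.Agent.P213.ADC.Data

noncomputable section

variable {K : ADC} (D : Data K) {n : ℕ}

/-- Above level `j` the cell `c` is the atom at `a`. -/
def Stg (a : K.B n) (j : ℕ) (c : Table K) : Prop :=
  ∀ l s, j < l → c.x l s = (D.atom a).x l s

/-- What is added to the atom in level `J`. -/
def wv (a : K.B n) (J : ℕ) (c : Table K) : K.B J →₀ ℤ := c.x J true - (D.atom a).x J true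

/-- The part of `wv` that can be done before the atom. -/
def lo (a : K.B n) (J : ℕ) (c : Table K) : K.B J →₀ ℤ :=
  (D.wv a J c).filter fun e => D.r e ≤ D.r a

/-- The part of `wv` that can be done after the atom. -/
def hi (a : K.B n) (J : ℕ) (c : Table K) : K.B J →₀ ℤ :=
  (D.wv a J c).filter fun e => ¬D.r e ≤ D.r a

/-- The whisker before the atom. -/
def rPart (a : K.B n) (J : ℕ) (c : Table K) : Table K :=
  cut c J (c.x J false) (c.x J false + K.d J (D.lo a (J + 1) c)) (D.lo a (J + 1) c)

/-- The whisker after the atom. -/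
def lPart (a : K.B n) (J : ℕ) (c : Table K) : Table K :=
  cut c J (c.x J true - K.d J (D.hi a (J + 1) c)) (c.x J true) (D.hi a (J + 1) c)

/-- The middle part. -/
def cPart (a : K.B n) (J : ℕ) (c : Table K) : Table K :=
  tb c J fun l s => Function.update (fun l => (D.atom a).x l) J
    (fun s => if s then c.x J true - K.d J (D.hi a (J + 1) c)
      else c.x J false + K.d J (D.lo a (J + 1) c)) l s

theorem lo_add_hi (a : K.B n) (J : ℕ) (c : Table K) : D.lo a J c + D.hi a J c = D.wv a J c :=
  Finsupp.filter_add_filter_not _ _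

theorem lo_ne_zero {a : K.B n} {J : ℕ} {c : Table K} {e : K.B J} (h : D.lo a J c e ≠ 0) :
    D.r e ≤ D.r a := by
  classical
  by_contra hc
  exact h (Finsupp.filter_apply_neg _ _ hc)

theorem hi_ne_zero {a : K.B n} {J : ℕ} {c : Table K} {e : K.B J} (h : D.hi a J c e ≠ 0) :
    D.r a < D.r e := by
  classical
  by_contra hc
  exact h (Finsupp.filter_apply_neg _ _ fun h' => h' (not_lt.1 hc))

variable {D} {a : K.B n} {J j : ℕ} {c : Table K}

theorem Stg.mono (h : D.Stg a j c) {i : ℕ} (hi : j ≤ i) : D.Stg a i c :=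
  fun l s hl => h l s (hi.trans_lt hl)

theorem Stg.le (h : D.Stg a j c) (hj : j < n) : Le n c :=
  fun l s hl => (h l s (hj.trans hl)).trans ((D.isAtom n a).above l s hl)

theorem Stg.d_eq (h : D.Stg a j c) :
    c.x j true - c.x j false = (D.atom a).x j true - (D.atom a).x j false := by
  rw [← c.bdry j true, ← (D.atom a).bdry j true, h _ _ j.lt_succ_self]

theorem Stg.wv_eq (h : D.Stg a j c) : D.wv a j c = c.x j false - (D.atom a).x j false := by
  rw [wv, sub_eq_sub_iff_sub_eq_sub]
  exact h.d_eq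

theorem Stg.wv_nonneg (h : D.Stg a j c) (hj : j < n) : 0 ≤ D.wv a j c := by
  intro b
  have e1 : D.wv a j c b = c.x j true b - (D.atom a).x j true b := rfl
  have e2 : D.wv a j c b = c.x j false b - (D.atom a).x j false b := by rw [h.wv_eq]; rfl
  have := D.atom_min a hj b
  have : 0 ≤ c.x j true b := c.nonneg j true b
  have : 0 ≤ c.x j false b := c.nonneg j false b
  simp only [Finsupp.coe_zero, Pi.zero_apply]
  omega

theorem Stg.lo_nonneg (h : D.Stg a j c) (hj : j < n) : 0 ≤ D.lo a j c := by
  classical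
  intro b
  rw [lo, Finsupp.filter_apply]
  split_ifs <;> first | exact h.wv_nonneg hj b | exact le_rfl

theorem Stg.hi_nonneg (h : D.Stg a j c) (hj : j < n) : 0 ≤ D.hi a j c := by
  classical
  intro b
  rw [hi, Finsupp.filter_apply]
  split_ifs <;> first | exact h.wv_nonneg hj b | exact le_rfl

theorem Stg.tgt_level (_h : D.Stg a j c) :
    c.x j true = D.lo a j c + (D.hi a j c + (D.atom a).x j true) := by
  rw [← add_assoc, D.lo_add_hi, wv, sub_add_cancel]

theorem Stg.src_level (h : D.Stg a j c) :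
    c.x j false = (D.lo a j c + (D.atom a).x j false) + D.hi a j c := by
  rw [add_right_comm, D.lo_add_hi, h.wv_eq, sub_add_cancel]

theorem Stg.m₁_nonneg (h : D.Stg a (J + 1) c) (hn : J + 1 < n) :
    0 ≤ c.x J false + K.d J (D.lo a (J + 1) c) := by
  refine D.split_nonneg (q := D.hi a (J + 1) c + (D.atom a).x (J + 1) true) (c.nonneg J false)
    (c.nonneg J true) (h.lo_nonneg hn) (add_nonneg (h.hi_nonneg hn) ((D.atom a).nonneg _ _))
    (by rw [← h.tgt_level, c.bdry]) fun e e' he he' => (D.lo_ne_zero he).trans ?_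
  by_cases hhi : D.hi a (J + 1) c e' = 0
  · rw [Finsupp.add_apply, hhi, zero_add] at he'
    exact (D.rank_tgt a hn he').le
  · exact (D.hi_ne_zero hhi).le

theorem Stg.m₂_eq (h : D.Stg a (J + 1) c) :
    c.x J true - K.d J (D.hi a (J + 1) c) =
      c.x J false + K.d J (D.lo a (J + 1) c + (D.atom a).x (J + 1) false) := by
  have := c.bdry J false
  rw [h.src_level, map_add] at this
  rw [← sub_eq_zero] at this ⊢
  rw [← neg_eq_zero, ← this]; abel

theorem Stg.m₂_nonneg (h : D.Stg a (J + 1) c) (hn : J + 1 < n) :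
    0 ≤ c.x J true - K.d J (D.hi a (J + 1) c) := by
  rw [h.m₂_eq]
  refine D.split_nonneg (q := D.hi a (J + 1) c) (c.nonneg J false) (c.nonneg J true)
    (add_nonneg (h.lo_nonneg hn) ((D.atom a).nonneg _ _)) (h.hi_nonneg hn)
    (by rw [← h.src_level, c.bdry]) fun e e' he he' => le_trans ?_ (D.hi_ne_zero he').le
  by_cases hlo : D.lo a (J + 1) c e = 0
  · rw [Finsupp.add_apply, hlo, zero_add] at he
    exact (D.rank_src a hn he).le
  · exact D.lo_ne_zero hlo

theorem Stg.r_ok (h : D.Stg a (J + 1) c) (hn : J + 1 < n) :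
    CutOK c J (c.x J false) (c.x J false + K.d J (D.lo a (J + 1) c)) (D.lo a (J + 1) c) :=
  ⟨c.nonneg J false, h.m₁_nonneg hn, h.lo_nonneg hn, by abel, par_refl _⟩

theorem Stg.l_ok (h : D.Stg a (J + 1) c) (hn : J + 1 < n) :
    CutOK c J (c.x J true - K.d J (D.hi a (J + 1) c)) (c.x J true) (D.hi a (J + 1) c) where
  h₀ := h.m₂_nonneg hn
  h₁ := c.nonneg J true
  hp := h.hi_nonneg hn
  hd := by abel
  par := by rw [h.m₂_eq]; exact (par_refl _).add_d _

theorem Stg.c_glue (h : D.Stg a (J + 1) c) (hn : J + 1 < n) :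
    Glue c J fun l s => Function.update (fun l => (D.atom a).x l) J
      (fun s => if s then c.x J true - K.d J (D.hi a (J + 1) c)
        else c.x J false + K.d J (D.lo a (J + 1) c)) l s where
  nonneg l s hl := by
    rcases Nat.eq_or_lt_of_le hl with rfl | h'
    · simp only [Function.update_self]
      split_ifs <;> [exact h.m₂_nonneg hn; exact h.m₁_nonneg hn]
    · simp only [Function.update_of_ne h'.ne']
      exact (D.atom a).nonneg l s
  par := by
    simp only [Function.update_self, Bool.false_eq_true, if_false]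
    exact (par_refl _).add_d _
  bdry l s hl := by
    rcases Nat.eq_or_lt_of_le hl with rfl | h'
    · simp only [Function.update_self, Function.update_of_ne (Nat.succ_ne_self J),
        if_true, Bool.false_eq_true, if_false]
      have hs : K.d J ((D.atom a).x (J + 1) s) = K.d J ((D.atom a).x (J + 1) false) := by
        rw [(D.atom a).bdry, (D.atom a).bdry]
      rw [h.m₂_eq, hs, map_add]
      abel
    · simp only [Function.update_of_ne h'.ne', Function.update_of_ne (show l + 1 ≠ J by omega)]
      exact (D.atom a).bdry l s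
  zero := ⟨n + 1, fun l s hl => by
    simp only [Function.update_of_ne (show l ≠ J by omega)]
    exact (D.isAtom n a).above l s (by omega)⟩

theorem Stg.cPart_x (h : D.Stg a (J + 1) c) (hn : J + 1 < n) :
    (∀ l s, l < J → (D.cPart a J c).x l s = c.x l s) ∧
      (D.cPart a J c).x J true = c.x J true - K.d J (D.hi a (J + 1) c) ∧
      (D.cPart a J c).x J false = c.x J false + K.d J (D.lo a (J + 1) c) ∧
      D.Stg a J (D.cPart a J c) := by
  refine ⟨fun l s hl => ?_, ?_, ?_, fun l s hl => ?_⟩ <;> rw [cPart, tb_x (h.c_glue hn)]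
  · rw [if_pos hl]
  · simp
  · simp
  · rw [if_neg (by omega), Function.update_of_ne hl.ne']

theorem Stg.composable (h : D.Stg a (J + 1) c) (hn : J + 1 < n) :
    (D.cPart a J c).face J false = (D.rPart a J c).face J true ∧
      (D.lPart a J c).face J false = ((nu K).cmp J (D.cPart a J c) (D.rPart a J c)).face J true := by
  obtain ⟨c1, c2, c3, -⟩ := h.cPart_x hn
  obtain ⟨r1, r2, -, -⟩ := cut_x (h.r_ok hn)
  obtain ⟨l1, l2, -, -⟩ := cut_x (h.l_ok hn)
  have e₁ : (D.cPart a J c).face J false = (D.rPart a J c).face J true := by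
    refine face_congr (fun k s hk => ?_) ?_
    · rw [rPart, c1 k s hk, r1 k s hk]
    · rw [rPart, c3, r2]; rfl
  refine ⟨e₁, face_congr (fun k s hk => ?_) ?_⟩
  · rw [cmp_x e₁, if_pos hk, c1 k s hk, lPart, l1 k s hk]
  · rw [cmp_x e₁, if_neg (lt_irrefl _), if_pos rfl, if_pos rfl, c2, lPart, l2]; rfl

/-- A cell is the whiskered middle part. -/
theorem Stg.eq_cmp (h : D.Stg a (J + 1) c) (hn : J + 1 < n) :
    (nu K).cmp J (D.lPart a J c) ((nu K).cmp J (D.cPart a J c) (D.rPart a J c)) = c := by
  obtain ⟨e₁, e₂⟩ := h.composable hn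
  obtain ⟨c1, c2, c3, c4⟩ := h.cPart_x hn
  obtain ⟨r1, r2, r3, r4⟩ := cut_x (h.r_ok hn)
  obtain ⟨l1, l2, l3, l4⟩ := cut_x (h.l_ok hn)
  refine Table.ext (funext fun k => funext fun s => ?_)
  rw [cmp_x e₂]
  simp only [cmp_x e₁]
  rcases lt_trichotomy k J with hk | rfl | hk
  · simp only [if_pos hk]
    exact l1 k s hk
  · simp only [lt_irrefl, if_false, if_true, Bool.false_eq_true, lPart, rPart, l2, r2]
    cases s <;> simp
  · simp only [if_neg (show ¬k < J by omega), if_neg hk.ne']
    rcases Nat.eq_or_lt_of_le (Nat.succ_le_of_lt hk) with rfl | hk'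
    · simp only [lPart, rPart, l3, r3, c4 _ _ hk]
      cases s
      · rw [h.src_level]; abel
      · rw [h.tgt_level]; abel
    · simp only [lPart, rPart, l4 k s hk', r4 k s hk', zero_add, add_zero]
      rw [c4 k s hk, h k s hk']

/-- At stage `0` only the atom is left. -/
theorem Stg.eq_atom (h : D.Stg a 0 c) (hn : 0 < n) : c = D.atom a := by
  have hw : D.wv a 0 c = 0 := wt_eq_zero (h.wv_nonneg hn) (by
    rw [← D.aug_eq_wt, wv, map_sub, c.aug, (D.atom a).aug, sub_self])
  refine Table.ext (funext fun l => funext fun s => ?_)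
  rcases Nat.eq_zero_or_pos l with rfl | hl
  · cases s
    · exact sub_eq_zero.1 (h.wv_eq.symm.trans hw)
    · exact sub_eq_zero.1 hw
  · exact h l s hl

variable (D) in
include D in
/-- A vertex is an atom. -/
theorem le_zero_eq (hc : Le 0 c) : ∃ b : K.B 0, K.IsAtom b c := by
  obtain ⟨b, hb⟩ := D.level_zero c true
  exact ⟨b, fun s => by rw [hc.top_eq s true, hb], fun l s hl => hc l s hl,
    fun l hl => absurd hl (Nat.not_lt_zero l)⟩

/-- A cell whose only top generator is `a` is a whiskered atom. -/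
theorem stg_of_top {a : K.B (j + 1)} {c : Table K} (hc : Le (j + 1) c)
    (ha : c.x (j + 1) true = K.gen a) : D.Stg a j c := fun l s hl => by
  rcases Nat.eq_or_lt_of_le (Nat.succ_le_of_lt hl) with rfl | hl'
  · rw [(D.isAtom _ a).top, hc.top_eq s true, ha]
  · rw [hc l s hl', (D.isAtom _ a).above l s hl']

/-! ## Splitting the top level -/

variable (D) in
/-- The generators of `p` come no later than those of `q`. -/
def Sep {l : ℕ} (p q : K.B l →₀ ℤ) : Prop := ∀ e e', p e ≠ 0 → q e' ≠ 0 → D.r e ≤ D.r e'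

end

end Vale.Agent.P213.ADC.Data

namespace Vale.Agent.P213.ADC

noncomputable section

variable {K : ADC}

/-- The part of the top level done first. -/
def fstCut (c : Table K) (n : ℕ) (p : K.B (n + 1) →₀ ℤ) : Table K :=
  cut c n (c.x n false) (c.x n false + K.d n p) p

/-- The part of the top level done last. -/
def sndCut (c : Table K) (n : ℕ) (p : K.B (n + 1) →₀ ℤ) : Table K :=
  cut c n (c.x n false + K.d n p) (c.x n true) (c.x (n + 1) true - p)

theorem Data.cut_ok (D : Data K) {n : ℕ} {c : Table K} {p : K.B (n + 1) →₀ ℤ} (hp : 0 ≤ p)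
    (hp' : p ≤ c.x (n + 1) true) (hsep : D.Sep p (c.x (n + 1) true - p)) :
    CutOK c n (c.x n false) (c.x n false + K.d n p) p ∧
      CutOK c n (c.x n false + K.d n p) (c.x n true) (c.x (n + 1) true - p) := by
  have h1 : 0 ≤ c.x n false + K.d n p :=
    D.split_nonneg (c.nonneg n false) (c.nonneg n true) hp (sub_nonneg.2 hp')
      (by rw [add_sub_cancel, c.bdry]) hsep
  exact ⟨⟨c.nonneg n false, h1, hp, by abel, par_refl _⟩,
    ⟨h1, c.nonneg n true, sub_nonneg.2 hp', by rw [map_sub, c.bdry]; abel,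
      (par_refl _).add_d _⟩⟩

/-- A cell is the composite of the two parts. -/
theorem Data.cut_cmp (D : Data K) {n : ℕ} {c : Table K} (hc : Le (n + 1) c)
    {p : K.B (n + 1) →₀ ℤ} (hp : 0 ≤ p) (hp' : p ≤ c.x (n + 1) true)
    (hsep : D.Sep p (c.x (n + 1) true - p)) :
    (sndCut c n p).face n false = (fstCut c n p).face n true ∧
      (nu K).cmp n (sndCut c n p) (fstCut c n p) = c := by
  obtain ⟨h₁, h₂⟩ := D.cut_ok hp hp' hsep
  obtain ⟨f1, f2, f3, f4⟩ := cut_x h₁
  obtain ⟨s1, s2, s3, s4⟩ := cut_x h₂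
  have e : (sndCut c n p).face n false = (fstCut c n p).face n true :=
    face_congr (fun k s hk => by rw [sndCut, fstCut, f1 k s hk, s1 k s hk])
      (by rw [sndCut, fstCut, s2, f2]; rfl)
  refine ⟨e, Table.ext (funext fun k => funext fun s => ?_)⟩
  rw [cmp_x e]
  rcases lt_trichotomy k n with hk | rfl | hk
  · simp only [if_pos hk]
    exact s1 k s hk
  · simp only [lt_irrefl, if_false, if_true, sndCut, fstCut, s2, f2, Bool.false_eq_true]
    cases s <;> simp
  · simp only [if_neg (show ¬k < n by omega), if_neg hk.ne', sndCut, fstCut]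
    rcases Nat.eq_or_lt_of_le (Nat.succ_le_of_lt hk) with rfl | hk'
    · rw [s3, f3, sub_add_cancel, hc.top_eq s true]
    · rw [s4 k s hk', f4 k s hk', hc k s hk', add_zero]

theorem Data.exists_min (D : Data K) {n : ℕ} {q : K.B n →₀ ℤ} (hq : q ≠ 0) :
    ∃ a, q a ≠ 0 ∧ ∀ e, q e ≠ 0 → D.r a ≤ D.r e := by
  obtain ⟨a, ha, hmin⟩ := q.support.exists_min_image D.r (Finsupp.support_nonempty_iff.2 hq)
  exact ⟨a, Finsupp.mem_support_iff.1 ha, fun e he => hmin e (Finsupp.mem_support_iff.2 he)⟩

theorem Data.sep_min (D : Data K) {n : ℕ} {q : K.B n →₀ ℤ} {a : K.B n}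
    (hmin : ∀ e, q e ≠ 0 → D.r a ≤ D.r e) : D.Sep (K.gen a) (q - K.gen a) := fun e e' he he' => by
  have hea : e = a := by
    by_contra h
    exact he (Finsupp.single_eq_of_ne h)
  subst hea
  by_cases h : e' = e
  · rw [h]
  · refine hmin e' fun h0 => he' ?_
    rw [Finsupp.sub_apply, h0, gen, Finsupp.single_eq_of_ne h, sub_zero]

/-- Functors out of `ν K` are determined by the atoms. -/
theorem freeUnique : FreeUniqueGoal := by
  intro K hK X F G hFG
  obtain ⟨D⟩ := hK.nonempty_data
  have hcmp : ∀ {i : ℕ} {a b : Table K}, a.face i false = b.face i true →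
      F.map a = G.map a → F.map b = G.map b →
        F.map ((nu K).cmp i a b) = G.map ((nu K).cmp i a b) := fun h ha hb => by
    rw [OCat.map_cmp F h, OCat.map_cmp G h, ha, hb]
  suffices h : ∀ (n : ℕ) (c : Table K), Le n c → F.map c = G.map c by
    refine OCat.hom_ext fun (c : Table K) => ?_
    obtain ⟨N, hN⟩ := c.exists_zero
    exact h N c fun l s hl => hN l s hl.le
  intro n
  induction n with
  | zero =>
    intro c hc
    obtain ⟨b, hb⟩ := D.le_zero_eq hc
    exact hFG 0 b c hb
  | succ n ih =>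
    suffices h : ∀ (m : ℕ) (c : Table K), Le (n + 1) c → wt (c.x (n + 1) true) ≤ m →
        F.map c = G.map c from fun c hc => h _ c hc (Int.self_le_toNat _)
    intro m
    induction m with
    | zero =>
      intro c hc hm
      have h0 := wt_eq_zero (c.nonneg _ _) (le_antisymm hm (wt_nonneg (c.nonneg (n + 1) true)))
      refine ih c fun l s hl => ?_
      rcases Nat.eq_or_lt_of_le (Nat.succ_le_of_lt hl) with rfl | hl'
      · rw [hc.top_eq s true, h0]
      · exact hc l s hl'
    | succ m ihm =>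
      intro c hc hm
      by_cases h0 : c.x (n + 1) true = 0
      · exact ihm c hc (by rw [h0, map_zero]; positivity)
      obtain ⟨a, ha, hmin⟩ := D.exists_min h0
      have hg : 0 ≤ K.gen a := Finsupp.single_nonneg.2 zero_le_one
      have hle := single_le (c.nonneg (n + 1) true) ha
      obtain ⟨e, he⟩ := D.cut_cmp hc hg hle (D.sep_min hmin)
      obtain ⟨h₁, h₂⟩ := D.cut_ok hg hle (D.sep_min hmin)
      rw [← he]
      refine hcmp e (ihm _ (cut_x h₂).2.2.2 ?_) ?_
      · rw [sndCut, (cut_x h₂).2.2.1, map_sub, gen, wt_single]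
        push_cast at hm
        omega
      · obtain ⟨-, -, t3, t4⟩ := cut_x h₁
        suffices hj : ∀ (j : ℕ) (c' : Table K), j ≤ n → D.Stg a j c' → F.map c' = G.map c' from
          hj n _ le_rfl (Data.stg_of_top t4 (t3 true))
        intro j
        induction j with
        | zero =>
          intro c' _ hc'
          rw [hc'.eq_atom n.succ_pos]
          exact hFG _ a _ (D.isAtom _ a)
        | succ J ihJ =>
          intro c' hJ hc'
          have hn : J + 1 < n + 1 := by omega
          obtain ⟨e₁, e₂⟩ := hc'.composable hn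
          have hlev : Le n (D.rPart a J c') ∧ Le n (D.lPart a J c') :=
            ⟨(cut_x (hc'.r_ok hn)).2.2.2.mono hJ, (cut_x (hc'.l_ok hn)).2.2.2.mono hJ⟩
          rw [← hc'.eq_cmp hn]
          exact hcmp e₂ (ih _ hlev.2)
            (hcmp e₁ (ihJ _ (by omega) (hc'.cPart_x hn).2.2.2) (ih _ hlev.1))

end

end Vale.Agent.P213.ADC
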